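import Vale.Agent.P128.H757.Global

open MeasureTheory Set Metric
open Vale.Agent.P128 Vale.Agent.P128.H861

namespace Vale.Agent.Results.P128.HigherIntegrability

/-- **The Mumford-Shah conjecture in the plane and De Giorgi's conjecture on the gradient.** Let
`(u, K)` be a reduced minimizer of the Mumford-Shah functional in the open set `Ω` (`G` is the weak
gradient of `u` off `K`), with bounded `g`.

* (1) Q1 as posed: every point `x` of `K` is the centre of a closed disk contained in `Ω`, in which,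
  for some `α > 0`, the set `K` is an embedded `C^{1,α}` arc with `x` in its interior, or an embedded
  `C^{1,α}` arc ending at `x`, or the union of three embedded `C^{1,α}` arcs meeting only at `x`, at
  pairwise angles of 120 degrees.
* (2) The gradient is in weak `L⁴` on compact sets: for every compact `C ⊆ Ω` there is `A` such that
  `|{z ∈ C \ K : |∇u(z)| > t}| ≤ A / t⁴` for all `t > 0`.
* (3) De Giorgi's conjecture: `|∇u|^p` is integrable on `C \ K` for every compact `C ⊆ Ω` and all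
  `0 < p < 4`.
* (4) The exponent `4` is optimal, and it detects the crack-tips: for `x ∈ Ω`, the function `|∇u|⁴` is
  integrable near `x` if and only if `x` is not a crack-tip. -/
theorem result (Ω : Set ℂ) (g u : ℂ → ℝ) (G : ℂ → ℂ) (K : Set ℂ) (hΩ : IsOpen Ω)
    (hg : MemLp g ⊤ (volume.restrict Ω)) (hmin : IsMinimizer Ω g u G K) (hred : IsReduced Ω K) :
    (∀ x ∈ K, ∃ r : ℝ, 0 < r ∧ closedBall x r ⊆ Ω ∧ ∃ α : ℝ, 0 < α ∧
      (ArcThrough α (K ∩ closedBall x r) x ∨ ArcEnding α (K ∩ closedBall x r) x ∨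
        TripleJunction α (K ∩ closedBall x r) x)) ∧
    (∀ C ⊆ Ω, IsCompact C → ∃ A : ℝ, ∀ t : ℝ, 0 < t →
      volume {z ∈ C \ K | t < ‖G z‖} ≤ ENNReal.ofReal (A / t ^ 4)) ∧
    (∀ C ⊆ Ω, IsCompact C → ∀ p : ℝ, 0 < p → p < 4 →
      IntegrableOn (fun z => ‖G z‖ ^ p) (C \ K)) ∧
    ∀ x ∈ Ω, (∃ r : ℝ, 0 < r ∧ closedBall x r ⊆ Ω ∧
      IntegrableOn (fun z => ‖G z‖ ^ 4) (closedBall x r \ K)) ↔ ¬ IsTip Ω K x := by
  have hadm := hmin.1
  have hK := hadm.measurableSet hΩ
  refine ⟨fun x hx => ?_, fun C hC hCc => ?_, fun C hC hCc p hp hp4 => ?_, fun x hx => ⟨?_, ?_⟩⟩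
  · rcases local_structure hΩ hg hmin hred hx with ⟨⟨r, h1, h2, α, h3, h4⟩, -⟩ |
      ⟨⟨r, h1, h2, α, h3, h4⟩, -⟩ | ⟨⟨r, h1, h2, α, h3, h4⟩, -⟩
    · exact ⟨r, h1, h2, α, h3, Or.inl h4⟩
    · exact ⟨r, h1, h2, α, h3, Or.inr (Or.inl h4)⟩
    · exact ⟨r, h1, h2, α, h3, Or.inr (Or.inr h4)⟩
  · obtain ⟨A, -, H⟩ := H757.weak_compact hΩ hg hmin hred hC hCc
    exact ⟨A, H⟩
  · exact H757.integrable_of_weakOn hΩ hadm hCc.isClosed.measurableSet hC hCc.measure_lt_top
      (H757.weak_compact hΩ hg hmin hred hC hCc) hp (by exact_mod_cast hp4)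
  · rintro ⟨r, hr, hrΩ, hint⟩ htip
    have hxK : x ∈ K := by
      obtain ⟨s, hs, -, α, -, γ, γ', -, hγ0, hγ⟩ := htip
      have h0 : x ∈ K ∩ closedBall x s := by
        rw [hγ, ← hγ0]
        exact ⟨0, ⟨le_rfl, zero_le_one⟩, rfl⟩
      exact h0.1
    have hD : HasDensities G K x 1 1 := by
      rcases local_structure hΩ hg hmin hred hxK with ⟨h, -⟩ | ⟨-, h⟩ | ⟨h, -⟩
      · exact absurd htip h.not_tip
      · exact h
      · exact absurd h htip.not_triple
    have hG2 : IntegrableOn (fun z => ‖G z‖ ^ 2) (closedBall x r \ K) :=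
      IntegrableOn.mono_set hadm.grad_memLp.norm.integrable_sq (sdiff_subset_sdiff_left hrΩ)
    refine H757.not_integrable_four hr hK hG2 ?_ hD.2
    refine hint.congr_fun (fun z _ => ?_) (isClosed_closedBall.measurableSet.diff hK)
    simp only []
    rw [← Real.rpow_natCast]
    norm_num
  · intro htip
    obtain ⟨r, hr, -, h5⟩ := H757.weak_local hΩ hg hmin hred hx
    obtain ⟨R, hR, hRΩ⟩ := Metric.nhds_basis_closedBall.mem_iff.1 (hΩ.mem_nhds hx)
    have hs : 0 < min (r / 2) R := by positivity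
    have hsub : closedBall x (min (r / 2) R) ⊆ ball x r :=
      closedBall_subset_ball ((min_le_left _ _).trans_lt (by linarith))
    have hsΩ : closedBall x (min (r / 2) R) ⊆ Ω :=
      (closedBall_subset_closedBall (min_le_right _ _)).trans hRΩ
    refine ⟨min (r / 2) R, hs, hsΩ, ?_⟩
    have h := H757.integrable_of_weakOn hΩ hadm isClosed_closedBall.measurableSet hsΩ
      measure_closedBall_lt_top ((h5 htip).mono hsub) (p := 4) (by norm_num) (by norm_num)
    refine h.congr_fun (fun z _ => ?_) (isClosed_closedBall.measurableSet.diff hK)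
    simp only []
    rw [← Real.rpow_natCast ‖G z‖ 4]
    norm_num

end Vale.Agent.Results.P128.HigherIntegrability
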