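import Vale.Agent.P128.H861.Unif5

open MeasureTheory Set Metric
open Vale.Agent.P128 Vale.Agent.P128.H861

namespace Vale.Agent.Results.P128.MumfordShahGraph

/-- **The Mumford-Shah conjecture in the plane, with the global structure.** Let `(u, K)` be a
reduced minimizer of the Mumford-Shah functional in the open set `Ω` (`G` is the weak gradient of
`u` off `K`), with bounded `g`.

* (1) Q1 as posed: every point `x` of `K` is the centre of a closed disk contained in `Ω`, in which,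
  for some `α > 0`, the set `K` is an embedded `C^{1,α}` arc with `x` in its interior, or an embedded
  `C^{1,α}` arc ending at `x`, or the union of three embedded `C^{1,α}` arcs meeting only at `x`, at
  pairwise angles of 120 degrees.
* (2) Exactly one of the three cases holds at `x`, and it is read off from the densities: as
  `r → 0`, the length of `K` in the disk of radius `r` about `x` divided by `r`, and the Dirichlet
  energy of `u` there divided by `r`, tend to `2` and `0` at a regular point, to `1` and `1` at a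
  crack-tip, to `3` and `0` at a triple junction.
* (3) Finiteness: if `C ⊆ Ω` is compact, then `K ∩ C` contains only finitely many crack-tips and
  triple junctions, only finitely many connected components of `K` meet `C`, and `K ∩ C` is covered
  by finitely many embedded `C^{1,α}` arcs contained in `K`, with one `α > 0`, any two of which meet
  at most in common end points, and whose interior points are all regular points of `K`.
* (4) Uniformity: for all `M` and `R > 0` there are `ρ > 0` and `N` such that for every reduced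
  minimizer `(u, K)` in every open `Ω` containing the disk of radius `R` about `x₀`, with `|g| ≤ M`,
  and `|u| ≤ M` on this disk, the disk of radius `R / 2` about `x₀` contains at most `N` crack-tips
  and triple junctions, and their mutual distances are at least `ρ`. -/
theorem result :
    (∀ (Ω : Set ℂ) (g u : ℂ → ℝ) (G : ℂ → ℂ) (K : Set ℂ), IsOpen Ω →
      MemLp g ⊤ (volume.restrict Ω) → IsMinimizer Ω g u G K → IsReduced Ω K →
      (∀ x ∈ K, ∃ r : ℝ, 0 < r ∧ closedBall x r ⊆ Ω ∧ ∃ α : ℝ, 0 < α ∧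
        (ArcThrough α (K ∩ closedBall x r) x ∨ ArcEnding α (K ∩ closedBall x r) x ∨
          TripleJunction α (K ∩ closedBall x r) x)) ∧
      (∀ x ∈ K,
        (IsRegularPt Ω K x ∧ ¬ IsTip Ω K x ∧ ¬ IsTriplePt Ω K x ∧ HasDensities G K x 2 0) ∨
        (¬ IsRegularPt Ω K x ∧ IsTip Ω K x ∧ ¬ IsTriplePt Ω K x ∧ HasDensities G K x 1 1) ∨
        (¬ IsRegularPt Ω K x ∧ ¬ IsTip Ω K x ∧ IsTriplePt Ω K x ∧ HasDensities G K x 3 0)) ∧
      ∀ C ⊆ Ω, IsCompact C →
        {x ∈ K ∩ C | ¬ IsRegularPt Ω K x}.Finite ∧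
        {S | ∃ x ∈ K ∩ C, S = connectedComponentIn K x}.Finite ∧
        ∃ (α : ℝ) (N : ℕ) (γ γ' : Fin N → ℝ → ℂ), 0 < α ∧ (∀ i, IsArc α 0 1 (γ i) (γ' i)) ∧
          (∀ i, γ i '' Icc 0 1 ⊆ K) ∧ K ∩ C ⊆ ⋃ i, γ i '' Icc 0 1 ∧
          (∀ i j, i ≠ j → γ i '' Icc 0 1 ∩ γ j '' Icc 0 1 ⊆ {γ i 0, γ i 1} ∩ {γ j 0, γ j 1}) ∧
          ∀ i, ∀ t ∈ Ioo (0 : ℝ) 1, IsRegularPt Ω K (γ i t)) ∧
    (∀ M R : ℝ, 0 < R → ∃ (ρ : ℝ) (N : ℕ), 0 < ρ ∧
      ∀ (Ω : Set ℂ) (g u : ℂ → ℝ) (G : ℂ → ℂ) (K : Set ℂ) (x₀ : ℂ), IsOpen Ω → ball x₀ R ⊆ Ω →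
        MemLp g ⊤ (volume.restrict Ω) → (∀ᵐ z ∂(volume.restrict Ω), |g z| ≤ M) →
        (∀ᵐ z ∂(volume.restrict (ball x₀ R)), |u z| ≤ M) →
        IsMinimizer Ω g u G K → IsReduced Ω K →
          (∀ x ∈ K ∩ ball x₀ (R / 2), ∀ y ∈ K ∩ ball x₀ (R / 2), x ≠ y → ¬ IsRegularPt Ω K x →
            ¬ IsRegularPt Ω K y → ρ ≤ dist x y) ∧
          {x ∈ K ∩ ball x₀ (R / 2) | ¬ IsRegularPt Ω K x}.Finite ∧
          {x ∈ K ∩ ball x₀ (R / 2) | ¬ IsRegularPt Ω K x}.ncard ≤ N) := by
  refine ⟨fun Ω g u G K hΩ hg hmin hred => ?_, fun M R hR => unif_main M R hR⟩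
  have H := fun x (hx : x ∈ K) => local_structure hΩ hg hmin hred hx
  refine ⟨fun x hx => ?_, fun x hx => ?_, fun C hC hCc => ?_⟩
  · rcases H x hx with ⟨⟨r, h1, h2, α, h3, h4⟩, -⟩ | ⟨⟨r, h1, h2, α, h3, h4⟩, -⟩ |
      ⟨⟨r, h1, h2, α, h3, h4⟩, -⟩
    · exact ⟨r, h1, h2, α, h3, Or.inl h4⟩
    · exact ⟨r, h1, h2, α, h3, Or.inr (Or.inl h4)⟩
    · exact ⟨r, h1, h2, α, h3, Or.inr (Or.inr h4)⟩
  · rcases H x hx with ⟨h, hd⟩ | ⟨h, hd⟩ | ⟨h, hd⟩
    · exact Or.inl ⟨h, h.not_tip, h.not_triple, hd⟩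
    · exact Or.inr (Or.inl ⟨fun h' => h'.not_tip h, h, h.not_triple, hd⟩)
    · exact Or.inr (Or.inr ⟨fun h' => h'.not_triple h, fun h' => h'.not_triple h, h, hd⟩)
  · refine compact_structure hmin.1.relClosed (fun x hx => ?_) hC hCc
    rcases H x hx with h | h | h
    · exact Or.inl h.1
    · exact Or.inr (Or.inl h.1)
    · exact Or.inr (Or.inr h.1)

end Vale.Agent.Results.P128.MumfordShahGraph
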