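import Vale.Agent.P128.H445.Lp

open MeasureTheory Set Metric
open Vale.Agent.P128 Vale.Agent.P128.H861

namespace Vale.Agent.Results.P128.UniformIntegrability

/-- **The Mumford-Shah conjecture in the plane, with uniform sharp integrability of the gradient.**

* (1) Q1 as posed: if `(u, K)` is a reduced minimizer of the Mumford-Shah functional in the open set
  `Ω` (with weak gradient `G` and bounded `g`), every point `x` of `K` is the centre of a closed disk
  contained in `Ω`, in which, for some `α > 0`, the set `K` is an embedded `C^{1,α}` arc with `x` in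
  its interior, or an embedded `C^{1,α}` arc ending at `x`, or the union of three embedded `C^{1,α}`
  arcs meeting only at `x`, at pairwise angles of 120 degrees.
* (2) Uniform weak `L⁴` estimate: for all `M` and `R > 0` there is a constant `A` such that for every
  open `Ω`, every disk `B_R(x₀) ⊆ Ω` and all reduced minimizers with `|g| ≤ M` on `Ω` and `|u| ≤ M` on
  `B_R(x₀)`, one has `|{z ∈ B_{R/2}(x₀) \ K : |∇u(z)| > t}| ≤ A / t⁴` for all `t > 0`.
* (3) Uniform form of De Giorgi's conjecture: for all `M`, `R > 0` and `0 < p < 4` there is a constant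
  `B` such that, for the same minimizers, the integral of `|∇u|^p` over `B_{R/2}(x₀) \ K` is at most
  `B`.
* (4) The exponent `4` is optimal, and it detects the crack-tips: for `x ∈ Ω`, the function `|∇u|⁴` is
  integrable near `x` if and only if `x` is not a crack-tip. -/
theorem result :
    (∀ (Ω : Set ℂ) (g u : ℂ → ℝ) (G : ℂ → ℂ) (K : Set ℂ), IsOpen Ω →
      MemLp g ⊤ (volume.restrict Ω) → IsMinimizer Ω g u G K → IsReduced Ω K →
      ∀ x ∈ K, ∃ r : ℝ, 0 < r ∧ closedBall x r ⊆ Ω ∧ ∃ α : ℝ, 0 < α ∧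
        (ArcThrough α (K ∩ closedBall x r) x ∨ ArcEnding α (K ∩ closedBall x r) x ∨
          TripleJunction α (K ∩ closedBall x r) x)) ∧
    (∀ M R : ℝ, 0 < R → ∃ A : ℝ,
      ∀ (Ω : Set ℂ) (g u : ℂ → ℝ) (G : ℂ → ℂ) (K : Set ℂ) (x₀ : ℂ), IsOpen Ω → ball x₀ R ⊆ Ω →
        MemLp g ⊤ (volume.restrict Ω) → (∀ᵐ z ∂(volume.restrict Ω), |g z| ≤ M) →
        (∀ᵐ z ∂(volume.restrict (ball x₀ R)), |u z| ≤ M) →
        IsMinimizer Ω g u G K → IsReduced Ω K → ∀ t : ℝ, 0 < t →
          volume {z ∈ ball x₀ (R / 2) \ K | t < ‖G z‖} ≤ ENNReal.ofReal (A / t ^ 4)) ∧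
    (∀ M R p : ℝ, 0 < R → 0 < p → p < 4 → ∃ B : ℝ,
      ∀ (Ω : Set ℂ) (g u : ℂ → ℝ) (G : ℂ → ℂ) (K : Set ℂ) (x₀ : ℂ), IsOpen Ω → ball x₀ R ⊆ Ω →
        MemLp g ⊤ (volume.restrict Ω) → (∀ᵐ z ∂(volume.restrict Ω), |g z| ≤ M) →
        (∀ᵐ z ∂(volume.restrict (ball x₀ R)), |u z| ≤ M) →
        IsMinimizer Ω g u G K → IsReduced Ω K →
          ∫⁻ z in ball x₀ (R / 2) \ K, ENNReal.ofReal (‖G z‖ ^ p) ≤ ENNReal.ofReal B) ∧
    ∀ (Ω : Set ℂ) (g u : ℂ → ℝ) (G : ℂ → ℂ) (K : Set ℂ), IsOpen Ω →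
      MemLp g ⊤ (volume.restrict Ω) → IsMinimizer Ω g u G K → IsReduced Ω K →
      ∀ x ∈ Ω, (∃ r : ℝ, 0 < r ∧ closedBall x r ⊆ Ω ∧
        IntegrableOn (fun z => ‖G z‖ ^ 4) (closedBall x r \ K)) ↔ ¬ IsTip Ω K x := by
  refine ⟨?_, ?_, ?_, ?_⟩
  · intro Ω g u G K hΩ hg hmin hred x hx
    rcases local_structure hΩ hg hmin hred hx with ⟨⟨r, h1, h2, α, h3, h4⟩, -⟩ |
      ⟨⟨r, h1, h2, α, h3, h4⟩, -⟩ | ⟨⟨r, h1, h2, α, h3, h4⟩, -⟩
    · exact ⟨r, h1, h2, α, h3, Or.inl h4⟩
    · exact ⟨r, h1, h2, α, h3, Or.inr (Or.inl h4)⟩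
    · exact ⟨r, h1, h2, α, h3, Or.inr (Or.inr h4)⟩
  · intro M R hR
    obtain ⟨A, -, H⟩ := H445.weak4_unif M R hR
    exact ⟨A, H⟩
  · intro M R p hR hp hp4
    exact H445.lp_unif M R p hR hp hp4
  · intro Ω g u G K hΩ hg hmin hred x hx
    have hadm := hmin.1
    have hK := hadm.measurableSet hΩ
    refine ⟨?_, ?_⟩
    · rintro ⟨r, hr, hrΩ, hint⟩ htip
      have hxK : x ∈ K := by
        obtain ⟨s, hs, -, α, -, γ, γ', -, hγ0, hγ⟩ := htip
        have h0 : x ∈ K ∩ closedBall x s := by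
          rw [hγ, ← hγ0]
          exact ⟨0, ⟨le_rfl, zero_le_one⟩, rfl⟩
        exact h0.1
      have hD : HasDensities G K x 1 1 := by
        rcases local_structure hΩ hg hmin hred hxK with ⟨h, -⟩ | ⟨-, h⟩ | ⟨h, -⟩
        · exact absurd htip h.not_tip
        · exact h
        · exact absurd h htip.not_triple
      have hG2 : IntegrableOn (fun z => ‖G z‖ ^ 2) (closedBall x r \ K) :=
        IntegrableOn.mono_set hadm.grad_memLp.norm.integrable_sq (sdiff_subset_sdiff_left hrΩ)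
      refine H757.not_integrable_four hr hK hG2 ?_ hD.2
      refine hint.congr_fun (fun z _ => ?_) (isClosed_closedBall.measurableSet.diff hK)
      simp only []
      rw [← Real.rpow_natCast]
      norm_num
    · intro htip
      obtain ⟨r, hr, -, h5⟩ := H757.weak_local hΩ hg hmin hred hx
      obtain ⟨R, hR, hRΩ⟩ := Metric.nhds_basis_closedBall.mem_iff.1 (hΩ.mem_nhds hx)
      have hs : 0 < min (r / 2) R := by positivity
      have hsub : closedBall x (min (r / 2) R) ⊆ ball x r :=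
        closedBall_subset_ball ((min_le_left _ _).trans_lt (by linarith))
      have hsΩ : closedBall x (min (r / 2) R) ⊆ Ω :=
        (closedBall_subset_closedBall (min_le_right _ _)).trans hRΩ
      refine ⟨min (r / 2) R, hs, hsΩ, ?_⟩
      have h := H757.integrable_of_weakOn hΩ hadm isClosed_closedBall.measurableSet hsΩ
        measure_closedBall_lt_top ((h5 htip).mono hsub) (p := 4) (by norm_num) (by norm_num)
      refine h.congr_fun (fun z _ => ?_) (isClosed_closedBall.measurableSet.diff hK)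
      simp only []
      rw [← Real.rpow_natCast ‖G z‖ 4]
      norm_num

end Vale.Agent.Results.P128.UniformIntegrability
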